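import Vale.Agent.P249L.Plan

/-! CORE: dimension bound for Euclidean nets. -/

namespace Vale.Agent.P249L

open MeasureTheory ProbabilityTheory Real
open scoped ENNReal NNReal

namespace CoreX

/-- the `l_p` norm of a finite family -/
noncomputable def N {d : ℕ} (p : ℝ) (v : Fin d → ℝ) : ℝ := (∑ k, |v k| ^ p) ^ (1 / p)

theorem N_nonneg {d : ℕ} (p : ℝ) (v : Fin d → ℝ) : 0 ≤ N p v :=
  Real.rpow_nonneg (Finset.sum_nonneg fun k _ => Real.rpow_nonneg (abs_nonneg _) _) _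

theorem N_add {d : ℕ} {p : ℝ} (hp : 1 ≤ p) (v w : Fin d → ℝ) :
    N p (fun k => v k + w k) ≤ N p v + N p w :=
  Real.Lp_add_le Finset.univ v w hp

theorem N_le {d : ℕ} {p : ℝ} (hp : 1 ≤ p) (v : Fin d → ℝ) (B : ℝ) (hB : 0 ≤ B)
    (h : ∀ k, |v k| ≤ B) : N p v ≤ (d : ℝ) ^ (1 / p) * B := by
  have hp0 : 0 < p := by linarith
  have h1 : ∑ k, |v k| ^ p ≤ (d : ℝ) * B ^ p := by
    calc ∑ k, |v k| ^ p ≤ ∑ _k : Fin d, B ^ p :=
          Finset.sum_le_sum fun k _ => Real.rpow_le_rpow (abs_nonneg _) (h k) hp0.le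
      _ = (d : ℝ) * B ^ p := by simp
  have h2 : N p v ≤ ((d : ℝ) * B ^ p) ^ (1 / p) :=
    Real.rpow_le_rpow (Finset.sum_nonneg fun k _ => Real.rpow_nonneg (abs_nonneg _) _) h1
      (by positivity)
  refine h2.trans (le_of_eq ?_)
  rw [Real.mul_rpow (by positivity) (by positivity), ← Real.rpow_mul hB,
    mul_one_div_cancel hp0.ne', Real.rpow_one]

theorem lower {m d K : ℕ} {p D s : ℝ} (hp : 1 ≤ p) (hD : 1 ≤ D) (hs : 0 < s) (hK : 0 < K)
    (G : Finset (Eu m)) (F : Eu m → Fin d → ℝ) (f : Fin d → Eu m → ℝ)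
    (hG : ∀ x : Eu m, (∀ i, |x i| ≤ 1) → ∃ y ∈ G, ‖x - y‖ ≤ √m / K)
    (hF : ∀ x ∈ G, ∀ y ∈ G, s * ‖x - y‖ ≤ N p (fun k => F x k - F y k))
    (hf : ∀ k x y, |f k x - f k y| ≤ D * s * ‖x - y‖)
    (hfF : ∀ k, ∀ x ∈ G, f k x = F x k)
    (x x' : Eu m) (hx : ∀ i, |x i| ≤ 1) (hx' : ∀ i, |x' i| ≤ 1) :
    s * (‖x - x'‖ - 2 * (√m / K) * (1 + D * (d : ℝ) ^ (1 / p))) ≤
      N p (fun k => f k x - f k x') := by
  obtain ⟨y, hy, hxy⟩ := hG x hx
  obtain ⟨y', hy', hxy'⟩ := hG x' hx'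
  have h1 := hF y hy y' hy'
  have hN : N p (fun k => F y k - F y' k) ≤ N p (fun k => f k x - f k x') +
      2 * ((d : ℝ) ^ (1 / p) * (D * s * (√m / K))) := by
    have e1 : (fun k => F y k - F y' k) =
        fun k => (fun k => f k x - f k x') k +
          (fun k => (fun k => f k y - f k x) k + (fun k => f k x' - f k y') k) k := by
      funext k
      simp only [← hfF k y hy, ← hfF k y' hy']
      ring
    rw [e1]
    refine (N_add hp _ _).trans ?_
    refine add_le_add le_rfl ?_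
    refine (N_add hp _ _).trans ?_
    have e2 : N p (fun k => f k y - f k x) ≤ (d : ℝ) ^ (1 / p) * (D * s * (√m / K)) := by
      refine N_le hp _ _ (by positivity) fun k => ?_
      refine (hf k y x).trans ?_
      rw [norm_sub_rev]
      exact mul_le_mul_of_nonneg_left hxy (by positivity)
    have e3 : N p (fun k => f k x' - f k y') ≤ (d : ℝ) ^ (1 / p) * (D * s * (√m / K)) := by
      refine N_le hp _ _ (by positivity) fun k => ?_
      refine (hf k x' y').trans ?_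
      exact mul_le_mul_of_nonneg_left hxy' (by positivity)
    linarith
  have h2 : ‖x - x'‖ ≤ ‖y - y'‖ + 2 * (√m / K) := by
    have : x - x' = (x - y) + (y - y') + (y' - x') := by abel
    rw [this]
    refine (norm_add₃_le).trans ?_
    rw [norm_sub_rev y' x']
    linarith
  have h3 : s * ‖x - x'‖ ≤ s * (‖y - y'‖ + 2 * (√m / K)) := mul_le_mul_of_nonneg_left h2 hs.le
  nlinarith [h1, hN, h3]

theorem sq_lower {X κ M Y s : ℝ} (hX : 0 ≤ X) (hXM : X ≤ 2 * M) (hκ : 0 ≤ κ)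
    (hs : 0 < s) (hY : 0 ≤ Y) (h : s * (X - κ) ≤ Y) :
    s ^ 2 * (X ^ 2 - 4 * κ * M) ≤ Y ^ 2 := by
  have hM : 0 ≤ M := by linarith
  by_cases hc : κ ≤ X
  · have h1 : (s * (X - κ)) ^ 2 ≤ Y ^ 2 := by
      apply pow_le_pow_left₀ (mul_nonneg hs.le (by linarith)) h
    have h2 : s ^ 2 * (X ^ 2 - 4 * κ * M) ≤ (s * (X - κ)) ^ 2 := by
      have : X ^ 2 - 4 * κ * M ≤ (X - κ) ^ 2 := by nlinarith [mul_nonneg hκ hM, mul_nonneg hκ hX]
      calc s ^ 2 * (X ^ 2 - 4 * κ * M) ≤ s ^ 2 * (X - κ) ^ 2 :=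
            mul_le_mul_of_nonneg_left this (by positivity)
        _ = (s * (X - κ)) ^ 2 := by ring
    exact h2.trans h1
  · push Not at hc
    have h1 : X ^ 2 - 4 * κ * M ≤ 0 := by nlinarith [mul_nonneg hκ hM, mul_nonneg hκ hX]
    have h2 : s ^ 2 * (X ^ 2 - 4 * κ * M) ≤ 0 :=
      mul_nonpos_of_nonneg_of_nonpos (by positivity) h1
    exact h2.trans (by positivity)

theorem norm_cube {m : ℕ} (x x' : Eu m) (hx : ∀ i, |x i| ≤ 1) (hx' : ∀ i, |x' i| ≤ 1) :
    ‖x - x'‖ ≤ 2 * √m := by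
  have key : ∀ y : Eu m, (∀ i, |y i| ≤ 1) → ‖y‖ ≤ √m := by
    intro y hy
    rw [EuclideanSpace.norm_eq]
    apply Real.sqrt_le_sqrt
    calc ∑ i, ‖y i‖ ^ 2 ≤ ∑ _i : Fin m, (1 : ℝ) := by
          refine Finset.sum_le_sum fun i _ => ?_
          rw [Real.norm_eq_abs]
          exact pow_le_one₀ (abs_nonneg _) (hy i)
      _ = m := by simp
  calc ‖x - x'‖ ≤ ‖x‖ + ‖x'‖ := norm_sub_le _ _
    _ ≤ 2 * √m := by linarith [key x hx, key x' hx']

end CoreX

open CoreX

theorem core (hMPL : S_MPL) (hCUBE : S_CUBE) : S_CORE := by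
  obtain ⟨hT1, hT2, w, hw, hW⟩ := hCUBE
  intro p hp
  have hp1 : 1 ≤ p := by linarith
  have hp0 : 0 < p := by linarith
  have hMom : 0 ≤ Mom p := integral_nonneg fun t => Real.rpow_nonneg (abs_nonneg _) _
  refine ⟨(w / 2) ^ (p / 2) / (π ^ p * (Mom p + 1)), max 1 (16 / w), by positivity,
    le_max_left _ _, ?_⟩
  intro m d K D s G F hm hD hs hK hG hF
  set A := max 1 (16 / w) with hA
  have hA1 : 1 ≤ A := le_max_left _ _
  have hA2 : 16 / w ≤ A := le_max_right _ _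
  have hdp : 0 ≤ (d : ℝ) ^ (1 / p) := by positivity
  have hKpos : (0 : ℝ) < K := by
    have : 1 ≤ A * (1 + D * (d : ℝ) ^ (1 / p)) := by
      have h1 : 1 ≤ 1 + D * (d : ℝ) ^ (1 / p) := by
        have : 0 ≤ D * (d : ℝ) ^ (1 / p) := by positivity
        linarith
      nlinarith
    linarith
  have hKn : 0 < K := by exact_mod_cast hKpos
  set L : ℝ≥0 := ⟨D * s, by positivity⟩ with hL
  have hLc : (L : ℝ) = D * s := rfl
  -- extension
  have hext : ∀ k : Fin d, ∃ g : Eu m → ℝ, LipschitzWith L g ∧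
      Set.EqOn (fun x => F x k) g (G : Set (Eu m)) := by
    intro k
    apply LipschitzOnWith.extend_real
    apply LipschitzOnWith.of_dist_le_mul
    intro x hx y hy
    rw [Real.dist_eq, dist_eq_norm, hLc]
    refine le_trans ?_ (hF x hx y hy).2
    have h1 : |F x k - F y k| ^ p ≤ ∑ k, |F x k - F y k| ^ p :=
      Finset.single_le_sum (f := fun k => |F x k - F y k| ^ p)
        (fun k _ => Real.rpow_nonneg (abs_nonneg _) _) (Finset.mem_univ k)
    have h2 := Real.rpow_le_rpow (by positivity) h1 (by positivity : (0 : ℝ) ≤ 1 / p)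
    rwa [← Real.rpow_mul (abs_nonneg _), mul_one_div_cancel hp0.ne', Real.rpow_one] at h2
  choose f hf1 hf2 using hext
  have hfd : ∀ k x y, |f k x - f k y| ≤ D * s * ‖x - y‖ := by
    intro k x y
    have := (hf1 k).dist_le_mul x y
    rwa [Real.dist_eq, dist_eq_norm, hLc] at this
  set κ : ℝ := 2 * (√m / K) * (1 + D * (d : ℝ) ^ (1 / p)) with hκdef
  have hκ0 : 0 ≤ κ := by positivity
  set μ : Measure (Eu m × Eu m) := (gam m).prod (gam m) with hμ
  -- pointwise lower bound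
  have hpt : ∀ z : Eu m × Eu m,
      s ^ 2 * (‖TT m z.1 - TT m z.2‖ ^ 2 - 4 * κ * √m) ≤
        (N p (fun k => f k (TT m z.1) - f k (TT m z.2))) ^ 2 := by
    intro z
    refine sq_lower (norm_nonneg _) (norm_cube _ _ (hT2 m z.1) (hT2 m z.2)) hκ0 hs
      (N_nonneg _ _) ?_
    exact lower hp1 hD hs hKn G F f hG (fun x hx y hy => (hF x hx y hy).1) hfd
      (fun k x hx => (hf2 k hx).symm) _ _ (hT2 m z.1) (hT2 m z.2)
  -- the p-th power
  set Yp : Eu m × Eu m → ℝ :=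
    fun z => ∑ k, |f k (TT m z.1) - f k (TT m z.2)| ^ p with hYp
  have hYp0 : ∀ z, 0 ≤ Yp z := fun z =>
    Finset.sum_nonneg fun k _ => Real.rpow_nonneg (abs_nonneg _) _
  have hmp : ∀ k, Integrable (fun z : Eu m × Eu m =>
      |f k (TT m z.1) - f k (TT m z.2)| ^ p) μ ∧
      ∫ z, |f k (TT m z.1) - f k (TT m z.2)| ^ p ∂μ ≤ π ^ p * (L : ℝ) ^ p * Mom p := by
    intro k
    have := hMPL m p (L * 1) (f k ∘ TT m) hp1 ((hf1 k).comp (hT1 m))
    simpa using this
  have hYpi : Integrable Yp μ := integrable_finsetSum _ fun k _ => (hmp k).1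
  have hYpb : ∫ z, Yp z ∂μ ≤ d * (π ^ p * (L : ℝ) ^ p * Mom p) := by
    rw [hYp, integral_finsetSum _ fun k _ => (hmp k).1]
    calc ∑ k, ∫ z, |f k (TT m z.1) - f k (TT m z.2)| ^ p ∂μ
        ≤ ∑ _k : Fin d, (π ^ p * (L : ℝ) ^ p * Mom p) :=
          Finset.sum_le_sum fun k _ => (hmp k).2
      _ = d * (π ^ p * (L : ℝ) ^ p * Mom p) := by simp
  -- the square
  set Y2 : Eu m × Eu m → ℝ := fun z => (Yp z) ^ (2 / p) with hY2
  have hY2eq : ∀ z, (N p (fun k => f k (TT m z.1) - f k (TT m z.2))) ^ 2 = Y2 z := by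
    intro z
    rw [hY2]
    simp only [N]
    rw [← Real.rpow_natCast, ← Real.rpow_mul (hYp0 z)]
    congr 1
    push_cast
    ring
  have hTc : Continuous (TT m) := (hT1 m).continuous
  have hYpc : Continuous Yp := by
    rw [hYp]
    refine continuous_finsetSum _ fun k _ => ?_
    refine Continuous.rpow_const ?_ (fun _ => Or.inr hp0.le)
    exact (((hf1 k).continuous.comp (hTc.comp continuous_fst)).sub
      ((hf1 k).continuous.comp (hTc.comp continuous_snd))).abs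
  have hY2c : Continuous Y2 := hYpc.rpow_const (fun _ => Or.inr (by positivity))
  have hY20 : ∀ z, 0 ≤ Y2 z := fun z => Real.rpow_nonneg (hYp0 z) _
  have hY2i : Integrable Y2 μ := by
    refine Integrable.mono' ((integrable_const (1 : ℝ)).add hYpi)
      hY2c.aestronglyMeasurable (Filter.Eventually.of_forall fun z => ?_)
    rw [Real.norm_eq_abs, abs_of_nonneg (hY20 z)]
    show (Yp z) ^ (2 / p) ≤ 1 + Yp z
    by_cases hc : Yp z ≤ 1
    · have : (Yp z) ^ (2 / p) ≤ 1 := Real.rpow_le_one (hYp0 z) hc (by positivity)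
      linarith [hYp0 z]
    · push Not at hc
      have : (Yp z) ^ (2 / p) ≤ (Yp z) ^ (1 : ℝ) :=
        Real.rpow_le_rpow_of_exponent_le hc.le (by rw [div_le_one hp0]; exact hp)
      rw [Real.rpow_one] at this
      linarith
  have hlow : s ^ 2 * (w * m - 4 * κ * √m) ≤ ∫ z, Y2 z ∂μ := by
    have h1 : ∫ z, s ^ 2 * (‖TT m z.1 - TT m z.2‖ ^ 2 - 4 * κ * √m) ∂μ =
        s ^ 2 * (w * m - 4 * κ * √m) := by
      rw [integral_const_mul, integral_sub (hW m).1 (integrable_const _), (hW m).2]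
      simp
    rw [← h1]
    refine integral_mono (((hW m).1.sub (integrable_const _)).const_mul _) hY2i fun z => ?_
    rw [← hY2eq]
    exact hpt z
  have hmul : √(m : ℝ) * √m = m := Real.mul_self_sqrt (by positivity)
  have hlow2 : s ^ 2 * (w * m / 2) ≤ ∫ z, Y2 z ∂μ := by
    refine le_trans ?_ hlow
    refine mul_le_mul_of_nonneg_left ?_ (by positivity)
    have h1 : 4 * κ * √m = 8 * m * ((1 + D * (d : ℝ) ^ (1 / p)) / K) := by
      rw [hκdef]
      have : 4 * (2 * (√(m : ℝ) / K) * (1 + D * (d : ℝ) ^ (1 / p))) * √m =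
          8 * (√m * √m) * ((1 + D * (d : ℝ) ^ (1 / p)) / K) := by ring
      rw [this, hmul]
    have h2 : (1 + D * (d : ℝ) ^ (1 / p)) / K ≤ w / 16 := by
      rw [div_le_iff₀ hKpos]
      have h3 : 16 / w * (1 + D * (d : ℝ) ^ (1 / p)) ≤ K :=
        (mul_le_mul_of_nonneg_right hA2 (by positivity)).trans hK
      have h4 : w / 16 * (16 / w * (1 + D * (d : ℝ) ^ (1 / p))) ≤ w / 16 * K :=
        mul_le_mul_of_nonneg_left h3 (by positivity)
      have h5 : w / 16 * (16 / w * (1 + D * (d : ℝ) ^ (1 / p))) =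
          1 + D * (d : ℝ) ^ (1 / p) := by
        field_simp
      linarith
    rw [h1]
    have h6 : 8 * (m : ℝ) * ((1 + D * (d : ℝ) ^ (1 / p)) / K) ≤ 8 * m * (w / 16) :=
      mul_le_mul_of_nonneg_left h2 (by positivity)
    linarith
  -- Jensen
  have hjen : (∫ z, Y2 z ∂μ) ^ (p / 2) ≤ ∫ z, Yp z ∂μ := by
    have hcomp : ((fun t : ℝ => t ^ (p / 2)) ∘ Y2) = Yp := by
      funext z
      simp only [Function.comp, hY2]
      rw [← Real.rpow_mul (hYp0 z)]
      have : 2 / p * (p / 2) = 1 := by field_simp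
      rw [this, Real.rpow_one]
    have h1 := ConvexOn.map_integral_le (μ := μ) (s := Set.Ici (0 : ℝ))
      (g := fun t : ℝ => t ^ (p / 2)) (f := Y2)
      (convexOn_rpow (by linarith)) (Continuous.continuousOn
        (continuous_id.rpow_const (fun _ => Or.inr (by positivity)))) isClosed_Ici
      (Filter.Eventually.of_forall fun z => hY20 z) hY2i (by rw [hcomp]; exact hYpi)
    refine h1.trans (le_of_eq ?_)
    exact congrArg (fun g : Eu m × Eu m → ℝ => ∫ z, g z ∂μ) hcomp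
  have hfin : (s ^ 2 * (w * m / 2)) ^ (p / 2) ≤ d * (π ^ p * (L : ℝ) ^ p * Mom p) :=
    ((Real.rpow_le_rpow (by positivity) hlow2 (by positivity)).trans hjen).trans hYpb
  have e1 : (s ^ 2 * (w * m / 2)) ^ (p / 2) = s ^ p * ((w / 2) ^ (p / 2) * √m ^ p) := by
    have : s ^ 2 * (w * m / 2) = s ^ 2 * ((w / 2) * m) := by ring
    rw [this, Real.mul_rpow (by positivity) (by positivity),
      Real.mul_rpow (by positivity) (by positivity)]
    congr 1
    · rw [← Real.rpow_natCast, ← Real.rpow_mul hs.le]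
      congr 1
      push_cast
      ring
    · congr 1
      rw [Real.sqrt_eq_rpow, ← Real.rpow_mul (by positivity)]
      congr 1
      ring
  rw [e1, hLc, Real.mul_rpow (by positivity) hs.le] at hfin
  have hsp : 0 < s ^ p := Real.rpow_pos_of_pos hs p
  have e2 : (w / 2) ^ (p / 2) * √m ^ p ≤ d * (π ^ p * D ^ p * Mom p) := by
    have : s ^ p * ((w / 2) ^ (p / 2) * √m ^ p) ≤ s ^ p * (d * (π ^ p * D ^ p * Mom p)) := by
      calc s ^ p * ((w / 2) ^ (p / 2) * √m ^ p) ≤ _ := hfin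
        _ = s ^ p * (d * (π ^ p * D ^ p * Mom p)) := by ring
    exact le_of_mul_le_mul_left this hsp
  have hDp : 0 < D ^ p := by positivity
  have e3 : (√(m : ℝ) / D) ^ p = √(m : ℝ) ^ p / D ^ p :=
    Real.div_rpow (by positivity) (by positivity) p
  rw [e3, div_mul_div_comm, div_le_iff₀ (by positivity)]
  refine e2.trans ?_
  have : (d : ℝ) * (π ^ p * D ^ p * Mom p) ≤ d * (π ^ p * D ^ p * (Mom p + 1)) := by
    gcongr
    linarith
  refine this.trans (le_of_eq ?_)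
  ring

end Vale.Agent.P249L
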