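import Vale.Agent.P249L.Plan

namespace Vale.Agent.P249L

open MeasureTheory ProbabilityTheory Real
open scoped ENNReal NNReal

theorem abs_sin_sub_sin_le' (a b : ℝ) : |Real.sin a - Real.sin b| ≤ |a - b| := by
  have h := Real.lipschitzWith_sin.dist_le_mul a b
  simpa [Real.dist_eq] using h

theorem TT_sub_apply (m : ℕ) (x y : Eu m) (i : Fin m) :
    (TT m x - TT m y) i = Real.sin (x i) - Real.sin (y i) := by
  simp [TT]

theorem TT_sq (m : ℕ) (x y : Eu m) :
    ‖TT m x - TT m y‖ ^ 2 = ∑ i, (Real.sin (x i) - Real.sin (y i)) ^ 2 := by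
  rw [EuclideanSpace.real_norm_sq_eq]
  simp only [TT_sub_apply]

theorem TT_lip (m : ℕ) : LipschitzWith 1 (TT m) := by
  apply LipschitzWith.mk_one
  intro x y
  rw [dist_eq_norm, dist_eq_norm, ← sq_le_sq₀ (norm_nonneg _) (norm_nonneg _), TT_sq,
    EuclideanSpace.real_norm_sq_eq]
  apply Finset.sum_le_sum
  intro i _
  have h := abs_sin_sub_sin_le' (x i) (y i)
  have h1 : (x - y) i = x i - y i := rfl
  rw [h1]
  exact sq_le_sq.2 h

theorem gam_map_eval (m : ℕ) (i : Fin m) :
    (gam m).map (fun x : Eu m => x i) = gaussianReal 0 1 := by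
  have h1 : gam m = (Measure.pi (fun _ : Fin m => gaussianReal 0 1)).map (WithLp.toLp 2) :=
    map_pi_eq_stdGaussian.symm
  rw [h1, Measure.map_map (by fun_prop) (by fun_prop)]
  have h2 : ((fun x : Eu m => x i) ∘ (WithLp.toLp 2)) = Function.eval i := by
    funext x
    rfl
  rw [h2, Measure.pi_map_eval]
  simp

noncomputable def ww : ℝ :=
  ∫ z : ℝ × ℝ, (Real.sin z.1 - Real.sin z.2) ^ 2 ∂((gaussianReal 0 1).prod (gaussianReal 0 1))

theorem ww_int : Integrable (fun z : ℝ × ℝ => (Real.sin z.1 - Real.sin z.2) ^ 2)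
    ((gaussianReal 0 1).prod (gaussianReal 0 1)) := by
  apply Integrable.of_bound (by fun_prop) 4
  filter_upwards with z
  rw [Real.norm_eq_abs, abs_of_nonneg (sq_nonneg _)]
  have h1 := Real.abs_sin_le_one z.1
  have h2 := Real.abs_sin_le_one z.2
  rw [abs_le] at h1 h2
  nlinarith [h1.1, h1.2, h2.1, h2.2]

theorem ww_pos : 0 < ww := by
  have hop : (gaussianReal 0 1).IsOpenPosMeasure :=
    (gaussianReal_absolutelyContinuous' 0 (by norm_num)).isOpenPosMeasure
  unfold ww
  rw [integral_pos_iff_support_of_nonneg (fun z => sq_nonneg _) ww_int]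
  apply IsOpen.measure_pos
  · exact (by fun_prop : Continuous (fun z : ℝ × ℝ => (Real.sin z.1 - Real.sin z.2) ^ 2)).isOpen_support
  · refine ⟨(π / 2, 0), ?_⟩
    simp

theorem cube : S_CUBE := by
  refine ⟨TT_lip, ?_, ww, ww_pos, ?_⟩
  · intro m x i
    exact Real.abs_sin_le_one _
  · intro m
    have hmp : ∀ i : Fin m, MeasurePreserving (fun z : Eu m × Eu m => ((z.1 i, z.2 i) : ℝ × ℝ))
        ((gam m).prod (gam m)) ((gaussianReal 0 1).prod (gaussianReal 0 1)) := by
      intro i
      refine ⟨by fun_prop, ?_⟩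
      have h1 := Measure.map_prod_map (gam m) (gam m) (f := fun x : Eu m => x i)
        (g := fun x : Eu m => x i) (by fun_prop) (by fun_prop)
      rw [gam_map_eval] at h1
      rw [h1]
      rfl
    have hint : ∀ i : Fin m, Integrable
        (fun z : Eu m × Eu m => (Real.sin (z.1 i) - Real.sin (z.2 i)) ^ 2)
        ((gam m).prod (gam m)) := by
      intro i
      exact (hmp i).integrable_comp_of_integrable ww_int
    have hval : ∀ i : Fin m,
        ∫ z : Eu m × Eu m, (Real.sin (z.1 i) - Real.sin (z.2 i)) ^ 2 ∂((gam m).prod (gam m)) = ww := by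
      intro i
      have h := (hmp i).map_eq
      have h2 := integral_map (hmp i).measurable.aemeasurable (μ := (gam m).prod (gam m))
        (f := fun z : ℝ × ℝ => (Real.sin z.1 - Real.sin z.2) ^ 2) (by fun_prop)
      rw [h] at h2
      exact h2.symm
    simp only [TT_sq]
    refine ⟨integrable_finsetSum _ (fun i _ => hint i), ?_⟩
    rw [integral_finsetSum _ (fun i _ => hint i)]
    simp only [hval]
    simp [mul_comm]

end Vale.Agent.P249L
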