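import Vale.Agent.P249L.Plan

/-!
# P249L, module EMB (helper21): Euclidean space inside `L_p`
-/

namespace Vale.Agent.P249L

open MeasureTheory ProbabilityTheory Real
open scoped ENNReal NNReal InnerProductSpace

universe u

namespace EmbH

lemma map_inner (m : ℕ) (a : Eu m) :
    (gam m).map (fun x => ⟪a, x⟫_ℝ) = (gaussianReal 0 1).map (fun t => ‖a‖ * t) := by
  have h1 := IsGaussian.map_eq_gaussianReal (μ := gam m) (innerSL ℝ a)
  rw [integral_strongDual_stdGaussian, variance_dual_stdGaussian, innerSL_apply_norm] at h1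
  have h2 := gaussianReal_map_const_mul (μ := 0) (v := 1) ‖a‖
  rw [h2]
  have h3 : (fun x => ⟪a, x⟫_ℝ) = (innerSL ℝ a : Eu m → ℝ) := rfl
  rw [h3, h1]
  congr 1
  · simp
  · ext
    simp

lemma norm_inner_gauss (m : ℕ) (a : Eu m) (p : ℝ≥0∞) :
    eLpNorm (fun x => ⟪a, x⟫_ℝ) p (gam m) = ‖a‖ₑ * eLpNorm id p (gaussianReal 0 1) := by
  have hm : Measurable (fun x : Eu m => ⟪a, x⟫_ℝ) := by fun_prop
  have hm2 : Measurable (fun t : ℝ => ‖a‖ * t) := by fun_prop
  have h1 : eLpNorm (fun x => ⟪a, x⟫_ℝ) p (gam m) =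
      eLpNorm id p ((gam m).map (fun x => ⟪a, x⟫_ℝ)) := by
    rw [eLpNorm_map_measure aestronglyMeasurable_id hm.aemeasurable]
    rfl
  rw [h1, map_inner, eLpNorm_map_measure aestronglyMeasurable_id hm2.aemeasurable]
  have h2 : (id ∘ fun t : ℝ => ‖a‖ * t) = ‖a‖ • (id : ℝ → ℝ) := by
    ext t
    simp
  rw [h2, eLpNorm_const_smul]
  simp

lemma pos_gauss (p : ℝ≥0∞) (h0 : p ≠ 0) : eLpNorm id p (gaussianReal 0 1) ≠ 0 := by
  intro h
  rw [eLpNorm_eq_zero_iff aestronglyMeasurable_id h0] at h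
  have h1 : (gaussianReal 0 1) {t : ℝ | ¬ (id t = (0 : ℝ → ℝ) t)} = 0 := h
  have h2 : (gaussianReal 0 1) ({0} : Set ℝ) = 0 := by
    have := nullSingletonClass_gaussianReal (μ := 0) (v := 1) one_ne_zero
    exact measure_singleton 0
  have h3 : (gaussianReal 0 1) (Set.univ : Set ℝ) = 0 := by
    have : (Set.univ : Set ℝ) ⊆ {t : ℝ | ¬ (id t = (0 : ℝ → ℝ) t)} ∪ {0} := by
      intro t _
      by_cases ht : t = 0
      · right
        exact ht
      · left
        exact ht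
    refine measure_mono_null this ?_
    exact measure_union_null h1 h2
  rw [measure_univ] at h3
  exact one_ne_zero h3

end EmbH

theorem emb : S_EMB.{u} := by
  intro p _ hp m
  have hp1 : (1 : ℝ≥0∞) ≤ p := Fact.out
  have hp0 : p ≠ 0 := (lt_of_lt_of_le one_pos hp1).ne'
  set μ : Measure (ULift.{u} (Eu m)) := (gam m).map ULift.up with hμ
  have hnorm : ∀ a : Eu m, eLpNorm (fun x : ULift.{u} (Eu m) => ⟪a, x.down⟫_ℝ) p μ =
      ‖a‖ₑ * eLpNorm id p (gaussianReal 0 1) := by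
    intro a
    have hm : Measurable (fun x : ULift.{u} (Eu m) => ⟪a, x.down⟫_ℝ) :=
      (by fun_prop : Measurable (fun x : Eu m => ⟪a, x⟫_ℝ)).comp measurable_down
    rw [hμ, eLpNorm_map_measure hm.aestronglyMeasurable measurable_up.aemeasurable]
    exact EmbH.norm_inner_gauss m a p
  have hfin : eLpNorm id p (gaussianReal 0 1) ≠ ∞ := (memLp_id_gaussianReal' p hp).2.ne
  have hmem : ∀ a : Eu m, MemLp (fun x : ULift.{u} (Eu m) => ⟪a, x.down⟫_ℝ) p μ := by
    intro a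
    have hm : Measurable (fun x : ULift.{u} (Eu m) => ⟪a, x.down⟫_ℝ) :=
      (by fun_prop : Measurable (fun x : Eu m => ⟪a, x⟫_ℝ)).comp measurable_down
    refine ⟨hm.aestronglyMeasurable, ?_⟩
    rw [hnorm]
    exact ENNReal.mul_lt_top (by simp) hfin.lt_top
  refine ⟨ULift.{u} (Eu m), inferInstance, μ, fun a => (hmem a).toLp _,
    (eLpNorm id p (gaussianReal 0 1)).toReal,
    ENNReal.toReal_pos (EmbH.pos_gauss p hp0) hfin, fun a b => ?_⟩
  rw [← MemLp.toLp_sub, Lp.norm_toLp]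
  have h1 : ((fun x : ULift.{u} (Eu m) => ⟪a, x.down⟫_ℝ) - fun x : ULift.{u} (Eu m) =>
      ⟪b, x.down⟫_ℝ) = fun x : ULift.{u} (Eu m) => ⟪a - b, x.down⟫_ℝ := by
    ext x
    simp [inner_sub_left]
  rw [h1, hnorm, ENNReal.toReal_mul, toReal_enorm, mul_comm]

end Vale.Agent.P249L
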