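import Vale.Agent.P249L.Plan

namespace Vale.Agent.P249L

open MeasureTheory ProbabilityTheory Real
open scoped ENNReal NNReal

universe u

/-- The embedding property, in the unfolded form used by the hand-in. -/
def Suff (p : ℝ≥0∞) [Fact (1 ≤ p)] (n : ℕ) (D : ℝ) (d : ℕ) : Prop :=
  ∀ (Ω : Type u) [MeasurableSpace Ω] (μ : Measure Ω) (X : Finset (Lp ℝ p μ)), X.card = n →
    ∃ f : X → PiLp p (fun _ : Fin d => ℝ), ∃ s : ℝ, 0 < s ∧ ∀ x y : X,
      s * ‖(x : Lp ℝ p μ) - (y : Lp ℝ p μ)‖ ≤ ‖f x - f y‖ ∧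
        ‖f x - f y‖ ≤ D * s * ‖(x : Lp ℝ p μ) - (y : Lp ℝ p μ)‖

theorem infinite_Eu {m : ℕ} (hm : 1 ≤ m) : Infinite (Eu m) := by
  refine Infinite.of_injective (fun t : ℝ => EuclideanSpace.single (⟨0, hm⟩ : Fin m) t) ?_
  intro a b hab
  have := congrArg (fun v : Eu m => v ⟨0, hm⟩) hab
  simpa using this

theorem transfer (hEMB : S_EMB.{u}) (p : ℝ≥0∞) [Fact (1 ≤ p)] (hp : p ≠ ∞) (n d : ℕ) (D : ℝ)
    (hS : Suff.{u} p n D d) (m : ℕ) (hm : 1 ≤ m) (G : Finset (Eu m)) (hG : G.card ≤ n) :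
    ∃ (s : ℝ) (F : Eu m → Fin d → ℝ), 0 < s ∧ ∀ x ∈ G, ∀ y ∈ G,
      s * ‖x - y‖ ≤ (∑ k, |F x k - F y k| ^ p.toReal) ^ (1 / p.toReal) ∧
      (∑ k, |F x k - F y k| ^ p.toReal) ^ (1 / p.toReal) ≤ D * s * ‖x - y‖ := by
  classical
  obtain ⟨Ω, _, μ, J, c, hc, hJ⟩ := hEMB p hp m
  have hinj : Function.Injective J := by
    intro a b hab
    have h := hJ a b
    rw [hab, sub_self, norm_zero] at h
    have h1 : ‖a - b‖ = 0 := by
      rcases mul_eq_zero.1 h.symm with h2 | h2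
      · exact absurd h2 hc.ne'
      · exact h2
    exact sub_eq_zero.1 (norm_eq_zero.1 h1)
  have := infinite_Eu hm
  obtain ⟨G', hGG', hG'⟩ := Infinite.exists_superset_card_eq G n hG
  set X : Finset (Lp ℝ p μ) := G'.map ⟨J, hinj⟩ with hX
  have hXc : X.card = n := by rw [hX, Finset.card_map, hG']
  obtain ⟨f, s, hs, hf⟩ := hS Ω μ X hXc
  have hmem : ∀ x ∈ G, J x ∈ X := by
    intro x hx
    rw [hX, Finset.mem_map]
    exact ⟨x, hGG' hx, rfl⟩
  have hp0 : 0 < p.toReal := by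
    have h1 : (1 : ℝ≥0∞) ≤ p := Fact.out
    exact ENNReal.toReal_pos (by rintro rfl; simp at h1) hp
  refine ⟨s * c, fun x => if h : J x ∈ X then (fun k => f ⟨J x, h⟩ k) else 0, by positivity, ?_⟩
  intro x hx y hy
  have h := hf ⟨J x, hmem x hx⟩ ⟨J y, hmem y hy⟩
  have h1 : ‖f ⟨J x, hmem x hx⟩ - f ⟨J y, hmem y hy⟩‖ =
      (∑ k, |f ⟨J x, hmem x hx⟩ k - f ⟨J y, hmem y hy⟩ k| ^ p.toReal) ^ (1 / p.toReal) := by
    rw [PiLp.norm_eq_sum hp0]
    simp [Real.norm_eq_abs]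
  simp only [dif_pos (hmem x hx), dif_pos (hmem y hy)]
  rw [h1] at h
  simp only [hJ] at h
  constructor
  · calc s * c * ‖x - y‖ = s * (c * ‖x - y‖) := by ring
      _ ≤ _ := h.1
  · calc _ ≤ D * s * (c * ‖x - y‖) := h.2
      _ = D * (s * c) * ‖x - y‖ := by ring

theorem lower (hCORE : S_CORE) (hEMB : S_EMB.{u}) (hGRID : S_GRID) (hNUM : S_NUM)
    (p : ℝ≥0∞) [Fact (1 ≤ p)] (h2p : 2 < p) (hp : p ≠ ∞) :
    ∃ c B : ℝ, 0 < c ∧ 1 ≤ B ∧ ∀ (n : ℕ) (D : ℝ) (d : ℕ), 2 ≤ n → 1 < D → Suff.{u} p n D d →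
      c * (Real.log n / (D ^ 2 * (Real.log D + Real.log (Real.log n) + B))) ^ (p.toReal / 2)
        ≤ d := by
  classical
  have hpr : 2 < p.toReal := by
    have := (ENNReal.toReal_lt_toReal (by norm_num) hp).2 h2p
    simpa using this
  obtain ⟨c, A, hc, hA, hcore⟩ := hCORE p.toReal hpr.le
  obtain ⟨c', B, hc', hB, hnum⟩ := hNUM p.toReal c A hpr hc hA
  refine ⟨c', B, hc', hB, ?_⟩
  intro n D d hn hD hS
  have hD0 : 0 < D := by linarith
  have hd1 : (1 : ℝ) ≤ d := by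
    by_contra hcon
    have hd0 : d = 0 := by
      by_contra h
      exact hcon (by exact_mod_cast Nat.one_le_iff_ne_zero.2 h)
    subst hd0
    have hne : (0 : Eu 1) ≠ EuclideanSpace.single (0 : Fin 1) (1 : ℝ) := by
      intro h
      have := congrArg (fun v : Eu 1 => v 0) h
      simp at this
    obtain ⟨s, F, hs, hF⟩ := transfer hEMB p hp n 0 D hS 1 le_rfl
      {0, EuclideanSpace.single (0 : Fin 1) (1 : ℝ)} (le_trans Finset.card_le_two hn)
    have h := (hF 0 (by simp) (EuclideanSpace.single (0 : Fin 1) (1 : ℝ)) (by simp)).1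
    have hpos : 0 < s * ‖(0 : Eu 1) - EuclideanSpace.single (0 : Fin 1) (1 : ℝ)‖ :=
      mul_pos hs (norm_pos_iff.2 (sub_ne_zero.2 hne))
    have hz : (∑ k : Fin 0, |F 0 k - F (EuclideanSpace.single (0 : Fin 1) (1 : ℝ)) k| ^ p.toReal)
        ^ (1 / p.toReal) = 0 := by
      rw [Finset.univ_eq_empty, Finset.sum_empty, Real.zero_rpow]
      have : 0 < 1 / p.toReal := by positivity
      exact this.ne'
    rw [hz] at h
    linarith
  refine hnum n D d hn hD hd1 ?_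
  intro m hm hmn
  by_cases hd : (m : ℝ) ^ (p.toReal / 2) ≤ d
  · exact (min_le_left _ _).trans hd
  push Not at hd
  refine (min_le_right _ _).trans ?_
  have hm1 : (1 : ℝ) ≤ m := by exact_mod_cast hm
  have hA0 : 0 < A := by linarith
  set K : ℕ := ⌈2 * A * D * m⌉₊ with hK
  have hKle : 2 * A * D * m ≤ K := Nat.le_ceil _
  have hpos : 0 < 2 * A * D * m := by positivity
  have hK1 : 1 ≤ K := by
    have : 0 < (K : ℝ) := lt_of_lt_of_le hpos hKle
    exact_mod_cast this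
  obtain ⟨G, hGc, hGn⟩ := hGRID m K hK1
  obtain ⟨s, F, hs, hF⟩ := transfer hEMB p hp n d D hS m hm G (hGc.trans hmn)
  refine hcore m d K D s G F hm hD.le hs ?_ hGn hF
  have hd' : (d : ℝ) ^ (1 / p.toReal) ≤ m := by
    have h1 : (d : ℝ) ^ (1 / p.toReal) ≤ ((m : ℝ) ^ (p.toReal / 2)) ^ (1 / p.toReal) :=
      Real.rpow_le_rpow (by positivity) hd.le (by positivity)
    have h2 : ((m : ℝ) ^ (p.toReal / 2)) ^ (1 / p.toReal) = (m : ℝ) ^ ((1 : ℝ) / 2) := by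
      rw [← Real.rpow_mul (by positivity)]
      congr 1
      field_simp
    have h3 : (m : ℝ) ^ ((1 : ℝ) / 2) ≤ (m : ℝ) ^ (1 : ℝ) :=
      Real.rpow_le_rpow_of_exponent_le hm1 (by norm_num)
    rw [Real.rpow_one] at h3
    rw [h2] at h1
    exact h1.trans h3
  calc A * (1 + D * (d : ℝ) ^ (1 / p.toReal)) ≤ A * (D * m + D * m) := by
        apply mul_le_mul_of_nonneg_left _ hA0.le
        apply add_le_add
        · nlinarith
        · exact mul_le_mul_of_nonneg_left hd' hD0.le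
    _ = 2 * A * D * m := by ring
    _ ≤ K := hKle

end Vale.Agent.P249L
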