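import Vale.Agent.P249L.Plan

/-! P249L: a finite net of the cube. -/

set_option autoImplicit false

namespace Vale.Agent.P249L

theorem grid : S_GRID := by
  intro m K hK
  classical
  have hK0 : (0 : ℝ) < K := by exact_mod_cast hK
  refine ⟨(Fintype.piFinset (fun _ : Fin m => Finset.Icc (-(K : ℤ)) K)).image
    (fun j => (WithLp.toLp 2 (fun i => (j i : ℝ) / K) : Eu m)), ?_, ?_⟩
  · refine Finset.card_image_le.trans ?_
    rw [Fintype.card_piFinset]
    simp only [Int.card_Icc, Finset.prod_const, Finset.card_univ, Fintype.card_fin]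
    apply le_of_eq
    congr 1
    omega
  · intro x hx
    refine ⟨(WithLp.toLp 2 (fun i => ((⌊(K : ℝ) * x i⌋ : ℤ) : ℝ) / K) : Eu m), ?_, ?_⟩
    · rw [Finset.mem_image]
      refine ⟨fun i => ⌊(K : ℝ) * x i⌋, ?_, rfl⟩
      rw [Fintype.mem_piFinset]
      intro i
      rw [Finset.mem_Icc]
      have h := abs_le.1 (hx i)
      constructor
      · rw [Int.le_floor]
        push_cast
        nlinarith [h.1]
      · have h1 : (⌊(K : ℝ) * x i⌋ : ℝ) ≤ K := by
          refine (Int.floor_le _).trans ?_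
          nlinarith [h.2]
        exact_mod_cast h1
    · rw [EuclideanSpace.norm_eq]
      have h1 : ∀ i : Fin m, ‖(x - (WithLp.toLp 2 (fun i => ((⌊(K : ℝ) * x i⌋ : ℤ) : ℝ) / K) : Eu m)) i‖ ^ 2
          ≤ (1 / (K : ℝ)) ^ 2 := by
        intro i
        have e : (x - (WithLp.toLp 2 (fun i => ((⌊(K : ℝ) * x i⌋ : ℤ) : ℝ) / K) : Eu m)) i
            = (K * x i - ⌊(K : ℝ) * x i⌋) / K := by
          simp only [PiLp.sub_apply]
          field_simp
        rw [e, Real.norm_eq_abs, abs_of_nonneg (div_nonneg (by linarith [Int.floor_le ((K : ℝ) * x i)]) hK0.le)]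
        have h2 := Int.lt_floor_add_one ((K : ℝ) * x i)
        have h3 := Int.floor_le ((K : ℝ) * x i)
        apply pow_le_pow_left₀ (div_nonneg (by linarith) hK0.le)
        exact div_le_div_of_nonneg_right (by linarith) hK0.le
      calc √(∑ i, ‖(x - (WithLp.toLp 2 (fun i => ((⌊(K : ℝ) * x i⌋ : ℤ) : ℝ) / K) : Eu m)) i‖ ^ 2)
          ≤ √(∑ _i : Fin m, (1 / (K : ℝ)) ^ 2) :=
            Real.sqrt_le_sqrt (Finset.sum_le_sum (fun i _ => h1 i))
        _ = √m / K := by
            rw [Finset.sum_const, Finset.card_univ, Fintype.card_fin, nsmul_eq_mul,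
              Real.sqrt_mul (Nat.cast_nonneg m), Real.sqrt_sq (by positivity)]
            ring

end Vale.Agent.P249L
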