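import Mathlib

namespace Vale.Agent.P249L

open Filter Real

theorem lim_aux (q a D B c : ℝ) (hq : 0 < q) (ha : a < q) (hD : 1 < D) (hc : 0 < c) :
    Tendsto (fun L : ℝ => c * (L / (D ^ 2 * (Real.log D + Real.log L + B))) ^ q / L ^ a)
      atTop atTop := by
  have hD0 : 0 < D := by linarith
  set η : ℝ := (q - a) / (2 * q) with hη
  have hη0 : 0 < η := by rw [hη]; apply div_pos (by linarith) (by linarith)
  have hlo : (fun L : ℝ => Real.log D + B + Real.log L) =o[atTop] fun L : ℝ => L ^ η := by
    apply Asymptotics.IsLittleO.add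
    · exact Asymptotics.isLittleO_const_left.2 (Or.inr
        (tendsto_norm_atTop_atTop.comp (tendsto_rpow_atTop hη0)))
    · exact isLittleO_log_rpow_atTop hη0
  have hbd := hlo.bound (one_pos)
  have hlogtop : Tendsto (fun L : ℝ => Real.log L) atTop atTop := Real.tendsto_log_atTop
  have hpos : ∀ᶠ L : ℝ in atTop, 0 < Real.log D + Real.log L + B := by
    filter_upwards [hlogtop.eventually_gt_atTop (-(Real.log D + B))] with L hL
    linarith
  have hmain : Tendsto (fun L : ℝ => c / (D ^ 2) ^ q * L ^ ((q - a) / 2)) atTop atTop :=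
    (tendsto_rpow_atTop (by linarith)).const_mul_atTop (by positivity)
  refine tendsto_atTop_mono' atTop ?_ hmain
  filter_upwards [hbd, hpos, eventually_gt_atTop (0 : ℝ)] with L h1 h2 h3
  have h4 : Real.log D + Real.log L + B ≤ L ^ η := by
    rw [Real.norm_eq_abs, Real.norm_eq_abs, one_mul, abs_of_pos (Real.rpow_pos_of_pos h3 _)] at h1
    have := le_abs_self (Real.log D + B + Real.log L)
    linarith
  have h5 : L / (D ^ 2 * L ^ η) ≤ L / (D ^ 2 * (Real.log D + Real.log L + B)) := by
    apply div_le_div_of_nonneg_left h3.le (by positivity)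
    exact mul_le_mul_of_nonneg_left h4 (by positivity)
  have h6 : (L / (D ^ 2 * L ^ η)) ^ q ≤
      (L / (D ^ 2 * (Real.log D + Real.log L + B))) ^ q :=
    Real.rpow_le_rpow (by positivity) h5 hq.le
  have h7 : (L / (D ^ 2 * L ^ η)) ^ q = L ^ (q - η * q) / (D ^ 2) ^ q := by
    rw [Real.div_rpow h3.le (by positivity), Real.mul_rpow (by positivity) (by positivity),
      ← Real.rpow_mul h3.le, Real.rpow_sub h3]
    field_simp
  have h8 : c / (D ^ 2) ^ q * L ^ ((q - a) / 2) = c * (L ^ (q - η * q) / (D ^ 2) ^ q) / L ^ a := by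
    have h9 : L ^ ((q - a) / 2) = L ^ (q - η * q) / L ^ a := by
      rw [← Real.rpow_sub h3]
      congr 1
      rw [hη]
      field_simp
      ring
    rw [h9]
    ring
  rw [h8]
  apply div_le_div_of_nonneg_right _ (Real.rpow_pos_of_pos h3 _).le
  apply mul_le_mul_of_nonneg_left _ hc.le
  rw [← h7]
  exact h6

end Vale.Agent.P249L
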