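import Vale.Agent.P249L.Plan

namespace Vale.Agent.P249L

open MeasureTheory ProbabilityTheory Real
open scoped ENNReal NNReal Convolution

namespace MollX

lemma aux (m : ℕ) (L : ℝ≥0) (f : Eu m → ℝ) (hf : LipschitzWith L f) (ε : ℝ) (hε : 0 < ε) :
    ∃ g : Eu m → ℝ, ContDiff ℝ 1 g ∧ (∀ x, ‖fderiv ℝ g x‖ ≤ L) ∧ ∀ x, |g x - f x| ≤ ε := by
  set δ : ℝ := ε / (L + 1) with hδ
  have hL1 : (0 : ℝ) < (L : ℝ) + 1 := by positivity
  have hδpos : 0 < δ := div_pos hε hL1
  let φ : ContDiffBump (0 : Eu m) := ⟨δ / 2, δ, half_pos hδpos, half_lt_self hδpos⟩
  have hcont : Continuous f := hf.continuous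
  set g : Eu m → ℝ := (φ.normed volume ⋆[ContinuousLinearMap.lsmul ℝ ℝ, volume] f) with hg
  have hform : ∀ x, g x = ∫ t, φ.normed volume t * f (x - t) := by
    intro x
    rfl
  have hint : ∀ x, Integrable (fun t => φ.normed volume t * f (x - t)) volume := by
    intro x
    apply Continuous.integrable_of_hasCompactSupport
    · exact φ.continuous_normed.mul (hcont.comp (continuous_const.sub continuous_id))
    · exact φ.hasCompactSupport_normed.mul_right
  have hlip : LipschitzWith L g := by
    apply LipschitzWith.of_dist_le_mul
    intro x y
    rw [Real.dist_eq, hform, hform, ← integral_sub (hint x) (hint y)]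
    calc |∫ t, (φ.normed volume t * f (x - t) - φ.normed volume t * f (y - t))|
        ≤ ∫ t, |φ.normed volume t * f (x - t) - φ.normed volume t * f (y - t)| :=
          abs_integral_le_integral_abs
      _ ≤ ∫ t, φ.normed volume t * (L * dist x y) := by
          apply integral_mono_of_nonneg
          · exact Filter.Eventually.of_forall (fun t => abs_nonneg _)
          · exact (φ.integrable_normed).mul_const _
          · apply Filter.Eventually.of_forall
            intro t
            simp only
            rw [← mul_sub, abs_mul, abs_of_nonneg (φ.nonneg_normed t)]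
            apply mul_le_mul_of_nonneg_left _ (φ.nonneg_normed t)
            have := hf.dist_le_mul (x - t) (y - t)
            rw [Real.dist_eq, dist_sub_right] at this
            exact this
      _ = L * dist x y := by
          rw [integral_mul_const, φ.integral_normed, one_mul]
  refine ⟨g, ?_, ?_, ?_⟩
  · exact φ.hasCompactSupport_normed.contDiff_convolution_left _ φ.contDiff_normed
      hcont.locallyIntegrable
  · intro x
    exact norm_fderiv_le_of_lipschitz ℝ hlip
  · intro x
    have h := φ.dist_normed_convolution_le (μ := volume) (g := f) (x₀ := x) (ε := ε)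
      hcont.aestronglyMeasurable (by
        intro y hy
        have h1 := hf.dist_le_mul y x
        have h2 : dist y x < δ := hy
        calc dist (f y) (f x) ≤ L * dist y x := h1
          _ ≤ L * δ := mul_le_mul_of_nonneg_left h2.le (by positivity)
          _ ≤ (L + 1) * δ := by nlinarith
          _ = ε := by rw [hδ]; field_simp)
    rw [Real.dist_eq] at h
    exact h

end MollX

theorem moll : S_MOLL := by
  intro m L f hf ε hε
  exact MollX.aux m L f hf ε hε

end Vale.Agent.P249L
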