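import Vale.Agent.P249L.Plan

set_option autoImplicit false

namespace Vale.Agent.P249L

open MeasureTheory ProbabilityTheory Real Set
open scoped ENNReal NNReal

namespace MpX

section gen

variable {E : Type*} [NormedAddCommGroup E] [NormedSpace ℝ E]

/-- the derivative along the rotation -/
noncomputable def Phi (f : E → ℝ) (θ : ℝ) (z : E × E) : ℝ :=
  fderiv ℝ f (cos θ • z.1 + sin θ • z.2) (-sin θ • z.1 + cos θ • z.2)

theorem Phi_cont (f : E → ℝ) (hf : ContDiff ℝ 1 f) :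
    Continuous (fun q : ℝ × (E × E) => Phi f q.1 q.2) := by
  have h := hf.continuous_fderiv (by norm_num)
  unfold Phi
  apply Continuous.clm_apply
  · exact h.comp (by fun_prop)
  · fun_prop

theorem Phi_cont' (f : E → ℝ) (hf : ContDiff ℝ 1 f) (z : E × E) :
    Continuous (fun θ : ℝ => Phi f θ z) := by
  have h := hf.continuous_fderiv (by norm_num)
  have h1 : Continuous (fun θ : ℝ => cos θ • z.1 + sin θ • z.2) := by fun_prop
  have h2 : Continuous (fun θ : ℝ => -sin θ • z.1 + cos θ • z.2) := by fun_prop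
  unfold Phi
  exact (h.comp h1).clm_apply h2

theorem ftc (f : E → ℝ) (hf : ContDiff ℝ 1 f) (z : E × E) :
    ∫ θ in (0 : ℝ)..(π / 2), Phi f θ z = f z.2 - f z.1 := by
  have hd : ∀ θ ∈ uIcc (0 : ℝ) (π / 2),
      HasDerivAt (fun θ : ℝ => f (cos θ • z.1 + sin θ • z.2)) (Phi f θ z) θ := by
    intro θ _
    have h1 : HasDerivAt (fun θ : ℝ => cos θ • z.1 + sin θ • z.2)
        (-sin θ • z.1 + cos θ • z.2) θ :=
      ((Real.hasDerivAt_cos θ).smul_const z.1).add ((Real.hasDerivAt_sin θ).smul_const z.2)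
    have h2 : HasFDerivAt f (fderiv ℝ f (cos θ • z.1 + sin θ • z.2))
        (cos θ • z.1 + sin θ • z.2) :=
      ((hf.differentiable (by norm_num)) _).hasFDerivAt
    exact h2.comp_hasDerivAt θ h1
  rw [intervalIntegral.integral_eq_sub_of_hasDerivAt hd
    ((Phi_cont' f hf z).intervalIntegrable _ _)]
  simp

end gen

variable {m : ℕ}

theorem holder (g : ℝ → ℝ) (hg : Continuous g) (p : ℝ) (hp : 1 ≤ p) :
    (∫⁻ θ in Ioc (0 : ℝ) (π / 2), ‖g θ‖ₑ) ^ p ≤
      (ENNReal.ofReal (π / 2)) ^ (p - 1) * ∫⁻ θ in Ioc (0 : ℝ) (π / 2), ‖g θ‖ₑ ^ p := by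
  have hp0 : 0 < p := by linarith
  set ρ := volume.restrict (Ioc (0 : ℝ) (π / 2)) with hρ
  have hq : (1 : ℝ≥0∞) ≤ ENNReal.ofReal p := by
    rw [← ENNReal.ofReal_one]
    exact ENNReal.ofReal_le_ofReal hp
  have h := eLpNorm_le_eLpNorm_mul_rpow_measure_univ (μ := ρ) hq hg.aestronglyMeasurable
  rw [eLpNorm_one_eq_lintegral_enorm,
    eLpNorm_eq_lintegral_rpow_enorm_toReal (by simpa using hp0) ENNReal.ofReal_ne_top,
    ENNReal.toReal_ofReal hp0.le, ENNReal.toReal_one] at h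
  have hu : ρ univ = ENNReal.ofReal (π / 2) := by
    rw [hρ, Measure.restrict_apply_univ, Real.volume_Ioc, sub_zero]
  rw [hu] at h
  calc (∫⁻ θ, ‖g θ‖ₑ ∂ρ) ^ p
      ≤ ((∫⁻ θ, ‖g θ‖ₑ ^ p ∂ρ) ^ (1 / p) * ENNReal.ofReal (π / 2) ^ (1 / 1 - 1 / p)) ^ p :=
        ENNReal.rpow_le_rpow h hp0.le
    _ = ENNReal.ofReal (π / 2) ^ (p - 1) * ∫⁻ θ, ‖g θ‖ₑ ^ p ∂ρ := by
        rw [ENNReal.mul_rpow_of_nonneg _ _ hp0.le, ← ENNReal.rpow_mul, ← ENNReal.rpow_mul,
          one_div_mul_cancel hp0.ne', ENNReal.rpow_one, mul_comm]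
        congr 2
        field_simp

theorem pointwise (f : Eu m → ℝ) (hf : ContDiff ℝ 1 f) (p : ℝ) (hp : 1 ≤ p) (z : Eu m × Eu m) :
    ENNReal.ofReal (|f z.1 - f z.2| ^ p) ≤
      (ENNReal.ofReal (π / 2)) ^ (p - 1) * ∫⁻ θ in Ioc (0 : ℝ) (π / 2), ‖Phi f θ z‖ₑ ^ p := by
  have hc : Continuous fun θ : ℝ => Phi f θ z := Phi_cont' f hf z
  have hpi : (0 : ℝ) ≤ π / 2 := by positivity
  have h1 : ENNReal.ofReal (|f z.1 - f z.2| ^ p) = ‖f z.2 - f z.1‖ₑ ^ p := by
    rw [← ENNReal.ofReal_rpow_of_nonneg (abs_nonneg _) (by linarith), abs_sub_comm,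
      ← Real.norm_eq_abs, ofReal_norm]
  rw [h1, ← ftc f hf z, intervalIntegral.integral_of_le hpi]
  refine le_trans (ENNReal.rpow_le_rpow (enorm_integral_le_lintegral_enorm _) (by linarith)) ?_
  exact holder _ hc p hp

theorem mom_lintegral (p : ℝ) (hp : 1 ≤ p) :
    ∫⁻ t, ‖t‖ₑ ^ p ∂(gaussianReal 0 1) = ENNReal.ofReal (Mom p) := by
  have hp0 : 0 < p := by linarith
  have hint : Integrable (fun t : ℝ => |t| ^ p) (gaussianReal 0 1) := by
    have h := (memLp_id_gaussianReal (μ := 0) (v := 1) (Real.toNNReal p))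
    have h2 := h.integrable_norm_rpow (by simpa using hp0) (by simp)
    simpa [Real.coe_toNNReal p hp0.le, Real.norm_eq_abs] using h2
  unfold Mom
  rw [ofReal_integral_eq_lintegral_ofReal hint
    (Filter.Eventually.of_forall fun t => Real.rpow_nonneg (abs_nonneg _) _)]
  apply lintegral_congr
  intro t
  rw [← ENNReal.ofReal_rpow_of_nonneg (abs_nonneg _) hp0.le, ← Real.norm_eq_abs,
    ofReal_norm]

theorem dual_lintegral (l : StrongDual ℝ (Eu m)) (p : ℝ) (hp : 1 ≤ p) :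
    ∫⁻ v, ‖l v‖ₑ ^ p ∂(gam m) = ‖l‖ₑ ^ p * ENNReal.ofReal (Mom p) := by
  have hp0 : 0 < p := by linarith
  have hmap : (gam m).map l = (gaussianReal 0 1).map (‖l‖ * ·) := by
    rw [IsGaussian.map_eq_gaussianReal, gaussianReal_map_const_mul]
    congr 1
    · rw [integral_strongDual_stdGaussian]; simp
    · rw [variance_dual_stdGaussian, mul_one]
      ext
      simp
  have h1 : ∫⁻ v, ‖l v‖ₑ ^ p ∂(gam m) = ∫⁻ t, ‖t‖ₑ ^ p ∂((gam m).map l) := by
    rw [lintegral_map (by fun_prop) l.continuous.measurable]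
  rw [h1, hmap, lintegral_map (by fun_prop) (by fun_prop)]
  have h2 : ∀ t : ℝ, ‖‖l‖ * t‖ₑ ^ p = ‖l‖ₑ ^ p * ‖t‖ₑ ^ p := by
    intro t
    rw [enorm_mul, ENNReal.mul_rpow_of_nonneg _ _ hp0.le, enorm_norm]
  simp_rw [h2]
  rw [lintegral_const_mul _ (by fun_prop), mom_lintegral p hp]

theorem theta (f : Eu m → ℝ) (hf : ContDiff ℝ 1 f) (p L : ℝ) (hp : 1 ≤ p)
    (hL : ∀ x, ‖fderiv ℝ f x‖ ≤ L) (θ : ℝ) :
    ∫⁻ z, ‖Phi f θ z‖ₑ ^ p ∂((gam m).prod (gam m)) ≤
      ENNReal.ofReal L ^ p * ENNReal.ofReal (Mom p) := by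
  have hp0 : 0 < p := by linarith
  have hcd := hf.continuous_fderiv (by norm_num)
  have hmeas : Measurable (fun w : Eu m × Eu m => ‖fderiv ℝ f w.1 w.2‖ₑ ^ p) := by
    have : Continuous (fun w : Eu m × Eu m => fderiv ℝ f w.1 w.2) :=
      (hcd.comp continuous_fst).clm_apply continuous_snd
    have h2 := this.measurable
    fun_prop
  have hrot := IsGaussian.map_rotation_eq_self (μ := gam m)
    (by simp) θ
  have h1 : ∫⁻ z, ‖Phi f θ z‖ₑ ^ p ∂((gam m).prod (gam m)) =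
      ∫⁻ w, ‖fderiv ℝ f w.1 w.2‖ₑ ^ p
        ∂(((gam m).prod (gam m)).map (ContinuousLinearMap.rotation θ)) := by
    rw [lintegral_map hmeas (ContinuousLinearMap.rotation θ).continuous.measurable]
    rfl
  rw [h1, hrot, lintegral_prod _ hmeas.aemeasurable]
  simp_rw [dual_lintegral _ p hp]
  calc ∫⁻ u, ‖fderiv ℝ f u‖ₑ ^ p * ENNReal.ofReal (Mom p) ∂(gam m)
      ≤ ∫⁻ _u, ENNReal.ofReal L ^ p * ENNReal.ofReal (Mom p) ∂(gam m) := by
        apply lintegral_mono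
        intro u
        dsimp only
        gcongr
        rw [← ofReal_norm]
        exact ENNReal.ofReal_le_ofReal (hL u)
    _ = _ := by simp

theorem main (f : Eu m → ℝ) (hf : ContDiff ℝ 1 f) (p L : ℝ) (hp : 1 ≤ p) (hL0 : 0 ≤ L)
    (hL : ∀ x, ‖fderiv ℝ f x‖ ≤ L) :
    ∫⁻ z, ENNReal.ofReal (|f z.1 - f z.2| ^ p) ∂((gam m).prod (gam m)) ≤
      ENNReal.ofReal ((π / 2) ^ p * L ^ p * Mom p) := by
  have hp0 : 0 < p := by linarith
  have hpi : (0 : ℝ) < π / 2 := by positivity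
  have hmeas : Measurable (fun q : ℝ × (Eu m × Eu m) => ‖Phi f q.1 q.2‖ₑ ^ p) := by
    have h2 := (Phi_cont f hf).measurable
    fun_prop
  have hMom : 0 ≤ Mom p := by
    unfold Mom
    exact integral_nonneg fun t => Real.rpow_nonneg (abs_nonneg _) _
  calc ∫⁻ z, ENNReal.ofReal (|f z.1 - f z.2| ^ p) ∂((gam m).prod (gam m))
      ≤ ∫⁻ z, (ENNReal.ofReal (π / 2)) ^ (p - 1) *
          (∫⁻ θ in Ioc (0 : ℝ) (π / 2), ‖Phi f θ z‖ₑ ^ p) ∂((gam m).prod (gam m)) :=
        lintegral_mono fun z => pointwise f hf p hp z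
    _ = (ENNReal.ofReal (π / 2)) ^ (p - 1) * ∫⁻ z,
          (∫⁻ θ in Ioc (0 : ℝ) (π / 2), ‖Phi f θ z‖ₑ ^ p) ∂((gam m).prod (gam m)) := by
        rw [lintegral_const_mul']
        exact ENNReal.rpow_ne_top_of_nonneg (by linarith) ENNReal.ofReal_ne_top
    _ = (ENNReal.ofReal (π / 2)) ^ (p - 1) * ∫⁻ θ in Ioc (0 : ℝ) (π / 2),
          (∫⁻ z, ‖Phi f θ z‖ₑ ^ p ∂((gam m).prod (gam m))) := by
        congr 1
        apply lintegral_lintegral_swap
        have : (Function.uncurry fun (z : Eu m × Eu m) (θ : ℝ) => ‖Phi f θ z‖ₑ ^ p) =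
            (fun q : ℝ × (Eu m × Eu m) => ‖Phi f q.1 q.2‖ₑ ^ p) ∘ Prod.swap := by
          ext ⟨z, θ⟩; rfl
        rw [this]
        exact (hmeas.comp measurable_swap).aemeasurable
    _ ≤ (ENNReal.ofReal (π / 2)) ^ (p - 1) * ∫⁻ _θ in Ioc (0 : ℝ) (π / 2),
          ENNReal.ofReal L ^ p * ENNReal.ofReal (Mom p) := by
        gcongr with θ
        exact theta f hf p L hp hL θ
    _ = (ENNReal.ofReal (π / 2)) ^ (p - 1) *
          (ENNReal.ofReal L ^ p * ENNReal.ofReal (Mom p) * ENNReal.ofReal (π / 2)) := by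
        rw [setLIntegral_const, Real.volume_Ioc, sub_zero]
    _ = ENNReal.ofReal ((π / 2) ^ p * L ^ p * Mom p) := by
        rw [ENNReal.ofReal_mul (by positivity), ENNReal.ofReal_mul (by positivity),
          ← ENNReal.ofReal_rpow_of_nonneg hpi.le hp0.le,
          ← ENNReal.ofReal_rpow_of_nonneg hL0 hp0.le]
        have e : ENNReal.ofReal (π / 2) ^ p =
            ENNReal.ofReal (π / 2) ^ (p - 1) * ENNReal.ofReal (π / 2) := by
          have h0 : ENNReal.ofReal (π / 2) ≠ 0 := by simpa using hpi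
          conv_lhs => rw [show p = (p - 1) + 1 by ring]
          rw [ENNReal.rpow_add _ _ h0 ENNReal.ofReal_ne_top, ENNReal.rpow_one]
        rw [e]
        ring

end MpX

open MpX in
theorem mp : S_MP := by
  intro m p L f hp hL0 hf hL
  have hp0 : 0 < p := by linarith
  have h := main f hf p L hp hL0 hL
  have hMom : 0 ≤ Mom p := by
    unfold Mom
    exact integral_nonneg fun t => Real.rpow_nonneg (abs_nonneg _) _
  have hm : Measurable (fun z : Eu m × Eu m => |f z.1 - f z.2| ^ p) := by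
    have : Continuous (fun z : Eu m × Eu m => |f z.1 - f z.2| ^ p) := by
      have := hf.continuous
      apply Continuous.rpow_const
      · fun_prop
      · intro z; right; exact hp0.le
    exact this.measurable
  have hnn : 0 ≤ᵐ[(gam m).prod (gam m)] (fun z : Eu m × Eu m => |f z.1 - f z.2| ^ p) :=
    Filter.Eventually.of_forall fun z => Real.rpow_nonneg (abs_nonneg _) _
  have hint : Integrable (fun z : Eu m × Eu m => |f z.1 - f z.2| ^ p) ((gam m).prod (gam m)) := by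
    rw [← lintegral_ofReal_ne_top_iff_integrable hm.aestronglyMeasurable hnn]
    exact ne_top_of_le_ne_top ENNReal.ofReal_ne_top h
  refine ⟨hint, ?_⟩
  rw [integral_eq_lintegral_of_nonneg_ae hnn hm.aestronglyMeasurable]
  exact ENNReal.toReal_le_of_le_ofReal (by positivity) h

end Vale.Agent.P249L
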