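import Vale.Agent.P249L.Plan

/-! P249L: Maurey-Pisier for Lipschitz functions, by smooth approximation. -/

set_option autoImplicit false

namespace Vale.Agent.P249L

open MeasureTheory ProbabilityTheory Real
open scoped ENNReal NNReal

lemma add_rpow_le' (a b p : ℝ) (ha : 0 ≤ a) (hb : 0 ≤ b) (hp : 1 ≤ p) :
    (a + b) ^ p ≤ 2 ^ (p - 1) * (a ^ p + b ^ p) := by
  lift a to ℝ≥0 using ha
  lift b to ℝ≥0 using hb
  exact_mod_cast NNReal.rpow_add_le_mul_rpow_add_rpow a b hp

theorem mpl : S_MP → S_MOLL → S_MPL := by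
  intro hMP hMOLL m p L f hp hf
  have hp0 : 0 < p := by linarith
  have hMom : 0 ≤ Mom p := by
    unfold Mom
    exact integral_nonneg (fun t => Real.rpow_nonneg (abs_nonneg _) _)
  have hcont : Continuous (fun z : Eu m × Eu m => |f z.1 - f z.2| ^ p) := by
    have h1 : Continuous (fun z : Eu m × Eu m => |f z.1 - f z.2|) :=
      ((hf.continuous.comp continuous_fst).sub (hf.continuous.comp continuous_snd)).abs
    exact h1.rpow_const (fun _ => Or.inr hp0.le)
  have key : ∀ ε : ℝ, 0 < ε → Integrable (fun z : Eu m × Eu m => |f z.1 - f z.2| ^ p)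
      ((gam m).prod (gam m)) ∧ ∫ z, |f z.1 - f z.2| ^ p ∂((gam m).prod (gam m)) ≤
        2 ^ (p - 1) * ((π / 2) ^ p * (L : ℝ) ^ p * Mom p + (2 * ε) ^ p) := by
    intro ε hε
    obtain ⟨g, hg1, hg2, hg3⟩ := hMOLL m L f hf ε hε
    obtain ⟨hi, hle⟩ := hMP m p L g hp L.coe_nonneg hg1 hg2
    have hb : ∀ z : Eu m × Eu m, |f z.1 - f z.2| ^ p ≤
        2 ^ (p - 1) * (|g z.1 - g z.2| ^ p + (2 * ε) ^ p) := by
      intro z
      have h1 : |f z.1 - f z.2| ≤ |g z.1 - g z.2| + 2 * ε := by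
        have ha := hg3 z.1
        have hb := hg3 z.2
        rw [abs_le] at ha hb
        have h2 := le_abs_self (g z.1 - g z.2)
        have h3 := neg_abs_le (g z.1 - g z.2)
        rw [abs_le]
        constructor <;> linarith [ha.1, ha.2, hb.1, hb.2]
      refine (Real.rpow_le_rpow (abs_nonneg _) h1 hp0.le).trans ?_
      exact add_rpow_le' _ _ p (abs_nonneg _) (by positivity) hp
    have hint : Integrable (fun z : Eu m × Eu m =>
        2 ^ (p - 1) * (|g z.1 - g z.2| ^ p + (2 * ε) ^ p)) ((gam m).prod (gam m)) :=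
      (hi.add (integrable_const _)).const_mul _
    have hif : Integrable (fun z : Eu m × Eu m => |f z.1 - f z.2| ^ p)
        ((gam m).prod (gam m)) := by
      refine hint.mono' hcont.aestronglyMeasurable (Filter.Eventually.of_forall (fun z => ?_))
      rw [Real.norm_eq_abs, abs_of_nonneg (Real.rpow_nonneg (abs_nonneg _) _)]
      exact hb z
    refine ⟨hif, (integral_mono hif hint hb).trans ?_⟩
    rw [integral_const_mul, integral_add hi (integrable_const _)]
    have h2 : (0 : ℝ) ≤ 2 ^ (p - 1) := by positivity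
    apply mul_le_mul_of_nonneg_left _ h2
    rw [integral_const, probReal_univ, smul_eq_mul, one_mul]
    linarith
  refine ⟨(key 1 one_pos).1, ?_⟩
  have hhalf : (2 : ℝ) ^ (p - 1) * ((π / 2) ^ p * (L : ℝ) ^ p * Mom p)
      ≤ π ^ p * (L : ℝ) ^ p * Mom p := by
    rw [Real.div_rpow Real.pi_pos.le (by norm_num)]
    have e : (2 : ℝ) ^ (p - 1) * (π ^ p / 2 ^ p * (L : ℝ) ^ p * Mom p)
        = (2 ^ (p - 1) / 2 ^ p) * (π ^ p * (L : ℝ) ^ p * Mom p) := by ring
    rw [e]
    have h1 : (2 : ℝ) ^ (p - 1) / 2 ^ p ≤ 1 := by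
      rw [div_le_one (by positivity)]
      exact Real.rpow_le_rpow_of_exponent_le (by norm_num) (by linarith)
    have h2 : 0 ≤ π ^ p * (L : ℝ) ^ p * Mom p :=
      mul_nonneg (mul_nonneg (Real.rpow_nonneg Real.pi_pos.le _)
        (Real.rpow_nonneg L.coe_nonneg _)) hMom
    exact mul_le_of_le_one_left h2 h1
  apply le_of_forall_pos_le_add
  intro η hη
  set ε : ℝ := min (1 / 2) (η / 2 ^ p) with hε
  have h2p : (0 : ℝ) < 2 ^ p := by positivity
  have hε0 : 0 < ε := lt_min (by norm_num) (div_pos hη h2p)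
  have h1 := (key ε hε0).2
  have h3 : (2 * ε) ^ p ≤ 2 * ε := by
    have hle1 : 2 * ε ≤ 1 := by
      have := min_le_left (1 / 2 : ℝ) (η / 2 ^ p)
      rw [← hε] at this
      linarith
    calc (2 * ε) ^ p ≤ (2 * ε) ^ (1 : ℝ) :=
          Real.rpow_le_rpow_of_exponent_ge (by positivity) hle1 hp
      _ = 2 * ε := Real.rpow_one _
  have h4 : (2 : ℝ) ^ (p - 1) * (2 * ε) ^ p ≤ η := by
    have h5 : ε ≤ η / 2 ^ p := min_le_right _ _
    calc (2 : ℝ) ^ (p - 1) * (2 * ε) ^ p ≤ 2 ^ (p - 1) * (2 * ε) := by gcongr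
      _ = 2 ^ p * ε := by
          rw [Real.rpow_sub (by norm_num), Real.rpow_one]; ring
      _ ≤ 2 ^ p * (η / 2 ^ p) := by gcongr
      _ = η := by field_simp
  linarith [h1, h4, hhalf, mul_add ((2 : ℝ) ^ (p - 1)) ((π / 2) ^ p * (L : ℝ) ^ p * Mom p)
    ((2 * ε) ^ p)]

end Vale.Agent.P249L
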