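import Vale.Agent.P249L.Plan

namespace Vale.Agent.P249L

open Real

theorem num : S_NUM := by
  intro p c A hp hc hA
  have hA0 : 0 < A := by linarith
  have hl7 : 0 < Real.log (7 * A) := Real.log_pos (by linarith)
  refine ⟨min 1 c * (1 / 2 : ℝ) ^ (p / 2), Real.log (7 * A) + 2,
    mul_pos (lt_min one_pos hc) (by positivity), by linarith, ?_⟩
  intro n D g hn hD hg hfam
  have hD0 : 0 < D := by linarith
  have hlD : 0 < Real.log D := Real.log_pos hD
  have hnR : (2 : ℝ) ≤ n := by exact_mod_cast hn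
  set L : ℝ := Real.log n with hL
  have hL2 : Real.log 2 ≤ L := Real.log_le_log (by norm_num) hnR
  have hl2 : (0.69 : ℝ) < Real.log 2 := by have := Real.log_two_gt_d9; linarith
  have hL0 : 0 < L := by linarith
  have hlL : -1 ≤ Real.log L := by
    have h1 : Real.log (1 / 2) ≤ Real.log L := Real.log_le_log (by norm_num) (by linarith)
    have h2 : Real.log (1 / 2 : ℝ) = - Real.log 2 := by
      rw [one_div, Real.log_inv]
    have h3 : Real.log 2 < 1 := by have := Real.log_two_lt_d9; linarith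
    linarith
  set Q : ℝ := Real.log D + Real.log L + (Real.log (7 * A) + 2) with hQ
  have hQ1 : 1 ≤ Q := by linarith
  have hQ0 : 0 < Q := by linarith
  have hp2 : 0 < p / 2 := by linarith
  have hmin0 : 0 < min 1 c := lt_min one_pos hc
  have hDQ : 0 < D ^ 2 * Q := by positivity
  have hD2 : 1 ≤ D ^ 2 := by nlinarith
  by_cases hLQ : 1 ≤ L / Q
  · set m : ℕ := ⌊L / Q⌋₊ with hm
    have hm1 : 1 ≤ m := Nat.le_floor (by exact_mod_cast hLQ)
    have hm1R : (1 : ℝ) ≤ m := by exact_mod_cast hm1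
    have hmle : (m : ℝ) ≤ L / Q := Nat.floor_le (by positivity)
    have hmgt : L / Q < m + 1 := Nat.lt_floor_add_one _
    have hmhalf : L / Q ≤ 2 * m := by linarith
    have hmQ : m * Q ≤ L := by rwa [le_div_iff₀ hQ0] at hmle
    have hmL : (m : ℝ) ≤ L := by nlinarith
    have hcond : (2 * ⌈2 * A * D * m⌉₊ + 1) ^ m ≤ n := by
      have hK : (⌈2 * A * D * m⌉₊ : ℝ) ≤ 2 * A * D * m + 1 :=
        (Nat.ceil_lt_add_one (by positivity)).le
      have hADm : 1 ≤ A * D * m := by
        have h1 : 1 ≤ A * D := by nlinarith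
        nlinarith
      have h7 : 2 * (⌈2 * A * D * m⌉₊ : ℝ) + 1 ≤ 7 * A * D * m := by nlinarith
      have hbase : (0 : ℝ) < 2 * (⌈2 * A * D * m⌉₊ : ℝ) + 1 := by positivity
      have hlog : Real.log (2 * (⌈2 * A * D * m⌉₊ : ℝ) + 1) ≤ Q := by
        have h1 : Real.log (2 * (⌈2 * A * D * m⌉₊ : ℝ) + 1) ≤ Real.log (7 * A * D * m) :=
          Real.log_le_log hbase h7
        have h2 : Real.log (7 * A * D * m) = Real.log (7 * A) + Real.log D + Real.log m := by
          rw [Real.log_mul (by positivity) (by positivity),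
            Real.log_mul (by positivity) (by positivity)]
        have h3 : Real.log m ≤ Real.log L := Real.log_le_log (by linarith) hmL
        linarith
      have h8 : (2 * (⌈2 * A * D * m⌉₊ : ℝ) + 1) ^ m ≤ (n : ℝ) := by
        rw [← Real.log_le_log_iff (by positivity) (by linarith), Real.log_pow]
        calc (m : ℝ) * Real.log (2 * (⌈2 * A * D * m⌉₊ : ℝ) + 1) ≤ m * Q :=
              mul_le_mul_of_nonneg_left hlog (by linarith)
          _ ≤ L := hmQ
      exact_mod_cast h8
    have hg1 := hfam m hm1 hcond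
    have hsq : (√(m : ℝ) / D) ^ p = ((m : ℝ) / D ^ 2) ^ (p / 2) := by
      have h1 : (m : ℝ) / D ^ 2 = (√(m : ℝ) / D) ^ (2 : ℝ) := by
        rw [Real.rpow_two, div_pow, Real.sq_sqrt (by positivity)]
      rw [h1, ← Real.rpow_mul (by positivity)]
      congr 1
      ring
    have hX : ((m : ℝ) / D ^ 2) ^ (p / 2) ≤ (m : ℝ) ^ (p / 2) := by
      apply Real.rpow_le_rpow (by positivity) _ hp2.le
      exact div_le_self (by positivity) hD2
    have hX0 : 0 ≤ ((m : ℝ) / D ^ 2) ^ (p / 2) := by positivity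
    have hlow : min 1 c * ((m : ℝ) / D ^ 2) ^ (p / 2) ≤ g := by
      refine le_trans (le_min ?_ ?_) hg1
      · calc min 1 c * ((m : ℝ) / D ^ 2) ^ (p / 2) ≤ 1 * ((m : ℝ) / D ^ 2) ^ (p / 2) :=
              mul_le_mul_of_nonneg_right (min_le_left _ _) hX0
          _ ≤ (m : ℝ) ^ (p / 2) := by rw [one_mul]; exact hX
      · rw [hsq]
        exact mul_le_mul_of_nonneg_right (min_le_right _ _) hX0
    refine le_trans ?_ hlow
    rw [mul_assoc, ← Real.mul_rpow (by positivity) (by positivity)]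
    apply mul_le_mul_of_nonneg_left _ hmin0.le
    apply Real.rpow_le_rpow (by positivity) _ hp2.le
    have h9 : 1 / 2 * (L / (D ^ 2 * Q)) = (L / Q / 2) / D ^ 2 := by
      field_simp
    rw [h9]
    apply div_le_div_of_nonneg_right _ (by positivity)
    linarith
  · push Not at hLQ
    refine le_trans ?_ hg
    have h1 : L / (D ^ 2 * Q) ≤ 1 := by
      rw [div_lt_one hQ0] at hLQ
      rw [div_le_one hDQ]
      nlinarith
    have h2 : (L / (D ^ 2 * Q)) ^ (p / 2) ≤ 1 :=
      Real.rpow_le_one (by positivity) h1 hp2.le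
    have h3 : min 1 c * (1 / 2 : ℝ) ^ (p / 2) ≤ 1 := by
      have h4 : (1 / 2 : ℝ) ^ (p / 2) ≤ 1 := Real.rpow_le_one (by norm_num) (by norm_num) hp2.le
      calc min 1 c * (1 / 2 : ℝ) ^ (p / 2) ≤ 1 * 1 :=
            mul_le_mul (min_le_left _ _) h4 (by positivity) (by norm_num)
        _ = 1 := one_mul 1
    calc _ ≤ 1 * 1 := mul_le_mul h3 h2 (by positivity) (by norm_num)
      _ = 1 := one_mul 1

end Vale.Agent.P249L
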