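import Mathlib

/-!
# P249 lower bound: d_p(n, D) >= c_p (log n / (D^2 (log D + log log n + B)))^(p/2) for p > 2

Idea: the grid (1/K) Z^m in [-1,1]^m (n = (2K+1)^m points, Euclidean metric) embeds in L_p.
If it embeds in l_p^d with distortion D, extend every coordinate to a D-Lipschitz function f_k on
R^m (McShane) and test on the random points T x = (sin x_i), T y = (sin y_i), with x, y independent
standard Gaussian: E |f_k(T x) - f_k(T y)|^p <= pi^p D^p M_p (Maurey-Pisier), so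
(c m)^(p/2) <= E || f(T x) - f(T y) ||_p^p <= d (pi D)^p M_p.
-/

namespace Vale.Agent.P249L

open MeasureTheory ProbabilityTheory Real
open scoped ENNReal NNReal

universe u

abbrev Eu (m : ℕ) := EuclideanSpace ℝ (Fin m)

/-- standard Gaussian measure on `Eu m` -/
noncomputable abbrev gam (m : ℕ) : Measure (Eu m) := stdGaussian (Eu m)

/-- the `p`-th absolute moment of a standard real Gaussian -/
noncomputable def Mom (p : ℝ) : ℝ := ∫ t, |t| ^ p ∂(gaussianReal 0 1)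

/-- coordinatewise sine -/
noncomputable def TT (m : ℕ) (x : Eu m) : Eu m := WithLp.toLp 2 (fun i => Real.sin (x i))

/-- MP: Maurey-Pisier for C^1 functions.
Proof: f z.2 - f z.1 = ∫ θ in 0..π/2, fderiv f (cos θ z.1 + sin θ z.2) (-sin θ z.1 + cos θ z.2);
Jensen for the power p; Fubini; the rotation of (z.1, z.2) preserves gam x gam
(Mathlib: ProbabilityTheory.IsGaussian.map_rotation_eq_self, ContinuousLinearMap.rotation);
for fixed u the functional v ↦ fderiv f u v has law gaussianReal 0 ‖fderiv f u‖^2 under gam. -/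
def S_MP : Prop := ∀ (m : ℕ) (p L : ℝ) (f : Eu m → ℝ), 1 ≤ p → 0 ≤ L → ContDiff ℝ 1 f →
  (∀ x, ‖fderiv ℝ f x‖ ≤ L) →
  Integrable (fun z : Eu m × Eu m => |f z.1 - f z.2| ^ p) ((gam m).prod (gam m)) ∧
  ∫ z, |f z.1 - f z.2| ^ p ∂((gam m).prod (gam m)) ≤ (π / 2) ^ p * L ^ p * Mom p

/-- MOLL: smooth approximation of Lipschitz functions (convolution with a ContDiffBump,
ContDiffBump.dist_normed_convolution_le). -/
def S_MOLL : Prop := ∀ (m : ℕ) (L : ℝ≥0) (f : Eu m → ℝ), LipschitzWith L f → ∀ ε : ℝ, 0 < ε →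
  ∃ g : Eu m → ℝ, ContDiff ℝ 1 g ∧ (∀ x, ‖fderiv ℝ g x‖ ≤ L) ∧ ∀ x, |g x - f x| ≤ ε

/-- MPL: Maurey-Pisier for Lipschitz functions (from MP, MOLL; (a+b)^p ≤ 2^(p-1)(a^p+b^p), ε → 0). -/
def S_MPL : Prop := ∀ (m : ℕ) (p : ℝ) (L : ℝ≥0) (f : Eu m → ℝ), 1 ≤ p → LipschitzWith L f →
  Integrable (fun z : Eu m × Eu m => |f z.1 - f z.2| ^ p) ((gam m).prod (gam m)) ∧
  ∫ z, |f z.1 - f z.2| ^ p ∂((gam m).prod (gam m)) ≤ π ^ p * (L : ℝ) ^ p * Mom p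

/-- CUBE: T is 1-Lipschitz into the cube and E ‖T x - T y‖^2 = w m with w > 0
(w = ∫∫ (sin s - sin t)^2; coordinates of gam are gaussianReal 0 1 by map_pi_eq_stdGaussian). -/
def S_CUBE : Prop := (∀ m, LipschitzWith 1 (TT m)) ∧ (∀ m x i, |TT m x i| ≤ 1) ∧
  ∃ w : ℝ, 0 < w ∧ ∀ m : ℕ,
    Integrable (fun z : Eu m × Eu m => ‖TT m z.1 - TT m z.2‖ ^ 2) ((gam m).prod (gam m)) ∧
    ∫ z, ‖TT m z.1 - TT m z.2‖ ^ 2 ∂((gam m).prod (gam m)) = w * m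

/-- EMB: Euclidean space embeds, up to a constant, isometrically in an L_p space living in
`Type u` (take Ω = ULift (Eu m), μ = the Gaussian measure, J a = the class of x ↦ ⟪a, x⟫;
the law of ⟪a, x⟫ is gaussianReal 0 ‖a‖^2, so ‖J a‖_p = ‖a‖ (Mom p)^(1/p)). -/
def S_EMB : Prop := ∀ (p : ℝ≥0∞) [Fact (1 ≤ p)], p ≠ ∞ → ∀ m : ℕ,
  ∃ (Ω : Type u) (_ : MeasurableSpace Ω) (μ : Measure Ω) (J : Eu m → Lp ℝ p μ) (c : ℝ),
    0 < c ∧ ∀ a b : Eu m, ‖J a - J b‖ = c * ‖a - b‖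

/-- GRID: a finite net of the cube. -/
def S_GRID : Prop := ∀ (m K : ℕ), 1 ≤ K → ∃ G : Finset (Eu m), G.card ≤ (2 * K + 1) ^ m ∧
  ∀ x : Eu m, (∀ i, |x i| ≤ 1) → ∃ y ∈ G, ‖x - y‖ ≤ √m / K

/-- CORE: the dimension bound for Euclidean nets. Proof from MPL, CUBE: McShane-extend
(LipschitzOnWith.extend_real) each coordinate of F from G to a (D s)-Lipschitz f_k. With
X = ‖T x - T y‖, Y = (∑ |f_k (T x) - f_k (T y)|^p)^(1/p), κ = 2 (√m / K) (1 + D d^(1/p)):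
Y ≥ s (X - κ), so Y^2 ≥ s^2 (X^2 - 4 κ √m) (X ≤ 2 √m), E Y^2 ≥ s^2 m w / 2 when κ ≤ w √m / 8,
and (E Y^2)^(p/2) ≤ E Y^p ≤ d (π D s)^p Mom p. -/
def S_CORE : Prop := ∀ p : ℝ, 2 ≤ p → ∃ c A : ℝ, 0 < c ∧ 1 ≤ A ∧
  ∀ (m d K : ℕ) (D s : ℝ) (G : Finset (Eu m)) (F : Eu m → Fin d → ℝ),
    1 ≤ m → 1 ≤ D → 0 < s → A * (1 + D * (d : ℝ) ^ (1 / p)) ≤ K →
    (∀ x : Eu m, (∀ i, |x i| ≤ 1) → ∃ y ∈ G, ‖x - y‖ ≤ √m / K) →
    (∀ x ∈ G, ∀ y ∈ G, s * ‖x - y‖ ≤ (∑ k, |F x k - F y k| ^ p) ^ (1 / p) ∧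
      (∑ k, |F x k - F y k| ^ p) ^ (1 / p) ≤ D * s * ‖x - y‖) →
    c * (√m / D) ^ p ≤ d

/-- NUM: from the family of bounds to the closed form. If g is a number with g ≥ 1 and
g ≥ min (m^(p/2)) (c (√m / D)^p) whenever n ≥ (2 K + 1)^m with K = ⌈2 A D m⌉₊,
then g ≥ c' (log n / (D^2 (log D + log log n + B)))^(p/2). -/
def S_NUM : Prop := ∀ p c A : ℝ, 2 < p → 0 < c → 1 ≤ A → ∃ c' B : ℝ, 0 < c' ∧ 1 ≤ B ∧
  ∀ (n : ℕ) (D g : ℝ), 2 ≤ n → 1 < D → 1 ≤ g →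
    (∀ m : ℕ, 1 ≤ m → (2 * ⌈2 * A * D * m⌉₊ + 1) ^ m ≤ n →
      min ((m : ℝ) ^ (p / 2)) (c * (√m / D) ^ p) ≤ g) →
    c' * (Real.log n / (D ^ 2 * (Real.log D + Real.log (Real.log n) + B))) ^ (p / 2) ≤ g

end Vale.Agent.P249L
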